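import Vale.Agent.P042.Cyl.Code

/-! # An eleven-cylinder code for `205`: one cylinder mod 41 and ten mod 205 -/

namespace Vale.Agent.P042.Cyl

/-- Moduli of the cylinders. -/
def qs : Fin 11 → ℕ := ![41, 205, 205, 205, 205, 205, 205, 205, 205, 205, 205]

/-- Residues of the cylinders. -/
def vs : Fin 11 → ℕ := ![0, 85, 129, 7, 13, 96, 140, 183, 67, 111, 194]

lemma qs_squarefree (i : Fin 11) : Squarefree (qs i) := by
  have h41 : Squarefree 41 := (by norm_num : Nat.Prime 41).prime.squarefree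
  have h5 : Squarefree 5 := (by norm_num : Nat.Prime 5).prime.squarefree
  have h205 : Squarefree 205 := by
    have : (205 : ℕ) = 5 * 41 := by norm_num
    rw [this]
    exact (Nat.squarefree_mul (by decide)).2 ⟨h5, h41⟩
  fin_cases i <;> simp [qs] <;> assumption

lemma vs_lt : ∀ i, vs i < qs i := by decide

lemma qs_sum : ∑ i, qs i = 2091 := by decide

set_option maxRecDepth 8000 in
lemma sep_check : ∀ i j : Fin 11, i ≠ j → ∀ y < Nat.gcd (qs i) (qs j),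
    (y * y + vs j) % Nat.gcd (qs i) (qs j) ≠ vs i % Nat.gcd (qs i) (qs j) := by
  decide +kernel

lemma qs_rpow_sum (x : ℝ) :
    ∑ i, ((qs i : ℕ) : ℝ) ^ x = (41 : ℝ) ^ x + 10 * (205 : ℝ) ^ x := by
  simp [qs, Fin.sum_univ_succ]
  ring

theorem exists_noSq {θ : ℝ} (h0 : 0 ≤ θ) (h1 : θ ≤ 1)
    (hS : 1 ≤ (41 : ℝ) ^ (1 - 2 * θ) + 10 * (205 : ℝ) ^ (1 - 2 * θ)) :
    ∃ C : ℝ, 0 < C ∧ ∀ N : ℕ, 1 ≤ N → ∃ A : Finset ℕ, A ⊆ Finset.range N ∧ NoSq A ∧
      C * (N : ℝ) ^ θ ≤ A.card :=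
  exists_large qs vs qs_squarefree vs_lt
    (fun i j hij => sep_of_lt (Nat.gcd_pos_of_pos_left _
      (Nat.pos_of_ne_zero (qs_squarefree i).ne_zero)) (sep_check i j hij))
    (by rw [qs_sum]; norm_num) h0 h1 (by rwa [qs_rpow_sum])

end Vale.Agent.P042.Cyl
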