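import Mathlib

/-!
# Cylinder codes and sets without square differences

A *cylinder* is a residue `v` modulo a squarefree `q`. If a finite family of cylinders is such
that for any two of them `v i - v j` is a non-square modulo `gcd (q i) (q j)` and
`∑ q i ^ (1 - 2θ) ≥ 1`, then there are subsets of `[N]` of size `≫ N^θ` without square
differences. (Ruzsa's construction is the case of a constant `q`.)
-/

namespace Vale.Agent.P042.Cyl

/-- No member exceeds another member by a nonzero square. -/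
def NoSq (A : Finset ℕ) : Prop := ∀ a ∈ A, ∀ b ∈ A, ∀ y : ℕ, b + y ^ 2 = a → y = 0

/-- To test non-squares modulo `g` it suffices to test `y < g`. -/
lemma sep_of_lt {g u w : ℕ} (hg : 0 < g) (h : ∀ y < g, (y * y + w) % g ≠ u % g) (y : ℕ) :
    (y * y + w) % g ≠ u % g := by
  have hy := h (y % g) (Nat.mod_lt _ hg)
  rwa [Nat.add_mod, ← Nat.mul_mod, ← Nat.add_mod] at hy

variable {ι : Type*} [Fintype ι] [DecidableEq ι] (q v : ι → ℕ)

/-- The block of the cylinder `i`, the quotients being taken from `B i`. -/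
def block (B : ι → Finset ℕ) (i : ι) : Finset ℕ :=
  (Finset.range (q i) ×ˢ B i).image fun jk => v i + q i * jk.1 + q i ^ 2 * jk.2

omit [Fintype ι] [DecidableEq ι] in
lemma cross (hsep : ∀ i j, i ≠ j → ∀ y : ℕ,
      (y * y + v j) % Nat.gcd (q i) (q j) ≠ v i % Nat.gcd (q i) (q j))
    {B : ι → Finset ℕ} {i j : ι} (hij : i ≠ j) {a b : ℕ} (ha : a ∈ block q v B i)
    (hb : b ∈ block q v B j) (y : ℕ) : b + y ^ 2 ≠ a := by
  intro hab
  simp only [block, Finset.mem_image, Finset.mem_product, Finset.mem_range] at ha hb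
  obtain ⟨⟨s, k⟩, -, rfl⟩ := ha
  obtain ⟨⟨t, l⟩, -, rfl⟩ := hb
  obtain ⟨e, he⟩ := Nat.gcd_dvd_left (q i) (q j)
  obtain ⟨f, hf⟩ := Nat.gcd_dvd_right (q i) (q j)
  apply hsep i j hij y
  generalize Nat.gcd (q i) (q j) = g at he hf ⊢
  have h1 : (v i + q i * s + q i ^ 2 * k) % g = v i % g := by
    have : v i + q i * s + q i ^ 2 * k = v i + g * (e * s + e * q i * k) := by
      rw [he]; ring
    rw [this, Nat.add_mul_mod_self_left]
  have h2 : (v j + q j * t + q j ^ 2 * l + y ^ 2) % g = (y * y + v j) % g := by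
    have : v j + q j * t + q j ^ 2 * l + y ^ 2 = y * y + v j + g * (f * t + f * q j * l) := by
      rw [hf]; ring
    rw [this, Nat.add_mul_mod_self_left]
  rw [← h2, ← h1, hab]

omit [Fintype ι] [DecidableEq ι] in
lemma same {B : ι → Finset ℕ} {i : ι} (hq : Squarefree (q i)) {j k l : ℕ} {s : ℕ}
    (hj : j < q i) (hs : s < q i) (hB : NoSq (B i)) (hk : k ∈ B i) (hl : l ∈ B i) {y : ℕ}
    (h : v i + q i * s + q i ^ 2 * l + y ^ 2 = v i + q i * j + q i ^ 2 * k) :
    y = 0 ∧ s = j ∧ l = k := by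
  have hdy : q i ∣ y := by
    refine (hq.dvd_pow_iff_dvd (n := 2) (by norm_num)).1 ?_
    have h1 : q i ∣ q i * s + q i ^ 2 * l := Dvd.intro (s + q i * l) (by ring)
    have h2 : q i ∣ q i * j + q i ^ 2 * k := Dvd.intro (j + q i * k) (by ring)
    exact (Nat.dvd_add_right h1).1 (by
      have : q i * s + q i ^ 2 * l + y ^ 2 = q i * j + q i ^ 2 * k := by omega
      rw [this]; exact h2)
  obtain ⟨z, rfl⟩ := hdy
  have hq0 : 0 < q i := by omega
  have h3 : s + q i * (l + z ^ 2) = j + q i * k := by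
    apply Nat.eq_of_mul_eq_mul_left hq0
    have : q i * (s + q i * (l + z ^ 2)) = q i * s + q i ^ 2 * l + (q i * z) ^ 2 := by ring
    have : q i * (j + q i * k) = q i * j + q i ^ 2 * k := by ring
    omega
  have hsj : s = j := by
    have := congrArg (· % q i) h3
    simpa [Nat.add_mul_mod_self_left, Nat.mod_eq_of_lt hs, Nat.mod_eq_of_lt hj] using this
  subst hsj
  have h4 : l + z ^ 2 = k := Nat.eq_of_mul_eq_mul_left hq0 (by omega)
  obtain rfl := hB k hk l hl z h4
  exact ⟨by simp, rfl, by simpa using h4⟩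

omit [DecidableEq ι] in
/-- One step of the construction. -/
lemma step (hq : ∀ i, Squarefree (q i)) (hv : ∀ i, v i < q i)
    (hsep : ∀ i j, i ≠ j → ∀ y : ℕ,
      (y * y + v j) % Nat.gcd (q i) (q j) ≠ v i % Nat.gcd (q i) (q j))
    (N : ℕ) (B : ι → Finset ℕ) (hBN : ∀ i, B i ⊆ Finset.range (N / q i ^ 2))
    (hB : ∀ i, NoSq (B i)) :
    ∃ A : Finset ℕ, A ⊆ Finset.range N ∧ NoSq A ∧ A.card = ∑ i, q i * (B i).card := by
  refine ⟨Finset.univ.biUnion (block q v B), ?_, ?_, ?_⟩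
  · intro x hx
    simp only [Finset.mem_biUnion, block, Finset.mem_image, Finset.mem_product,
      Finset.mem_range, Finset.mem_univ, true_and] at hx
    obtain ⟨i, ⟨s, k⟩, ⟨hs, hk⟩, rfl⟩ := hx
    have hk' : k + 1 ≤ N / q i ^ 2 := Finset.mem_range.1 (hBN i hk)
    have h1 : q i ^ 2 * (k + 1) ≤ N :=
      (Nat.mul_le_mul_left _ hk').trans (Nat.mul_div_le N (q i ^ 2))
    have h2 : q i * (s + 1) ≤ q i * q i := Nat.mul_le_mul_left _ hs
    rw [Finset.mem_range]
    have := hv i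
    nlinarith
  · intro a ha b hb y hab
    simp only [Finset.mem_biUnion, Finset.mem_univ, true_and] at ha hb
    obtain ⟨i, ha⟩ := ha
    obtain ⟨j, hb⟩ := hb
    rcases eq_or_ne i j with rfl | hij
    · simp only [block, Finset.mem_image, Finset.mem_product, Finset.mem_range] at ha hb
      obtain ⟨⟨s, k⟩, ⟨hs, hk⟩, rfl⟩ := ha
      obtain ⟨⟨t, l⟩, ⟨ht, hl⟩, rfl⟩ := hb
      exact (same q v (hq i) hs ht (hB i) hk hl hab).1
    · exact absurd hab (cross q v hsep hij ha hb y)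
  · rw [Finset.card_biUnion]
    · refine Finset.sum_congr rfl fun i _ => ?_
      rw [block, Finset.card_image_of_injOn, Finset.card_product, Finset.card_range]
      rintro ⟨s, k⟩ hs ⟨t, l⟩ ht h
      simp only [Finset.coe_product, Set.mem_prod, Finset.mem_coe, Finset.mem_range] at hs ht
      obtain ⟨-, h1, h2⟩ := same q v (hq i) ht.1 hs.1 (hB i) ht.2 hs.2
        (y := 0) (by simpa using h)
      exact Prod.ext h1 h2
    · intro i _ j _ hij
      rw [Function.onFun, Finset.disjoint_left]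
      exact fun a ha hb => cross q v hsep hij ha hb 0 (by simp)

/-- The main theorem of the construction, at the exact exponent. -/
theorem exists_large (hq : ∀ i, Squarefree (q i)) (hv : ∀ i, v i < q i)
    (hsep : ∀ i j, i ≠ j → ∀ y : ℕ,
      (y * y + v j) % Nat.gcd (q i) (q j) ≠ v i % Nat.gcd (q i) (q j))
    (hQ : 2 ≤ ∑ i, q i) {θ : ℝ} (h0 : 0 ≤ θ) (h1 : θ ≤ 1)
    (hS : 1 ≤ ∑ i, (q i : ℝ) ^ (1 - 2 * θ)) :
    ∃ C : ℝ, 0 < C ∧ ∀ N : ℕ, 1 ≤ N → ∃ A : Finset ℕ, A ⊆ Finset.range N ∧ NoSq A ∧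
      C * (N : ℝ) ^ θ ≤ A.card := by
  obtain ⟨M, hM⟩ : ∃ M, M = ∑ i, q i ^ 2 := ⟨_, rfl⟩
  obtain ⟨c, hc⟩ : ∃ c : ℝ, c = (1 / 2) / ((M : ℝ) + 1) ^ θ := ⟨_, rfl⟩
  have hM1 : (1 : ℝ) ≤ ((M : ℝ) + 1) ^ θ := Real.one_le_rpow (by simp) h0
  have hc0 : 0 < c := by rw [hc]; positivity
  have hc1 : c ≤ 1 / 2 := by rw [hc]; exact div_le_self (by norm_num) hM1
  suffices H : ∀ N : ℕ, 1 ≤ N → ∃ A : Finset ℕ, A ⊆ Finset.range N ∧ NoSq A ∧
      c * ((N : ℝ) + 1) ^ θ + 1 / 2 ≤ A.card by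
    refine ⟨c, hc0, fun N hN => ?_⟩
    obtain ⟨A, hA, hA', hA''⟩ := H N hN
    refine ⟨A, hA, hA', le_trans ?_ hA''⟩
    have := Real.rpow_le_rpow (Nat.cast_nonneg N) (by linarith : (N : ℝ) ≤ N + 1) h0
    nlinarith
  intro N
  induction N using Nat.strong_induction_on with
  | _ N ih =>
  intro hN
  by_cases hsmall : N < M
  · refine ⟨{0}, by simp; omega, ?_, ?_⟩
    · intro a ha b hb y h
      simp only [Finset.mem_singleton] at ha hb
      subst ha hb
      simpa using h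
    · have : ((N : ℝ) + 1) ^ θ ≤ ((M : ℝ) + 1) ^ θ := by
        apply Real.rpow_le_rpow (by positivity) _ h0
        have : (N : ℝ) ≤ M := by exact_mod_cast hsmall.le
        linarith
      have h2 : c * ((M : ℝ) + 1) ^ θ = 1 / 2 := by rw [hc]; field_simp
      simp only [Finset.card_singleton, Nat.cast_one]
      nlinarith
  · push Not at hsmall
    have hqM : ∀ i, q i ^ 2 ≤ N := fun i => le_trans
      (hM ▸ Finset.single_le_sum (f := fun i => q i ^ 2) (fun _ _ => Nat.zero_le _)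
        (Finset.mem_univ i)) hsmall
    have hB : ∀ i, ∃ A : Finset ℕ, A ⊆ Finset.range (N / q i ^ 2) ∧ NoSq A ∧
        c * ((N : ℝ) / (q i : ℝ) ^ 2) ^ θ + 1 / 2 ≤ A.card := by
      intro i
      have hq1 : 1 ≤ q i := Nat.pos_of_ne_zero (hq i).ne_zero
      rcases eq_or_lt_of_le hq1 with h | h
      · -- `q i = 1` is impossible unless it is the only cylinder
        exfalso
        have : ∀ j, j = i := by
          intro j
          by_contra hji
          apply hsep i j (Ne.symm hji) 0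
          simp [← h, Nat.mod_one]
        have h2 : ∑ j, q j = q i := Finset.sum_eq_single i (fun j _ hj => absurd (this j) hj)
          (by simp)
        omega
      · have hlt : N / q i ^ 2 < N := Nat.div_lt_self (by omega) (by nlinarith)
        obtain ⟨A, hA, hA', hA''⟩ := ih _ hlt
          (Nat.div_pos (hqM i) (by positivity))
        refine ⟨A, hA, hA', le_trans ?_ hA''⟩
        gcongr
        have hlt2 := Nat.lt_div_mul_add (a := N) (b := q i ^ 2) (by positivity)
        rw [div_le_iff₀ (by positivity)]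
        have : (N : ℝ) < ((N / q i ^ 2 * q i ^ 2 + q i ^ 2 : ℕ) : ℝ) := by exact_mod_cast hlt2
        push_cast at this
        linarith
    choose B hB1 hB2 hB3 using hB
    obtain ⟨A, hA, hA', hA''⟩ := step q v hq hv hsep N B hB1 hB2
    refine ⟨A, hA, hA', ?_⟩
    rw [hA'']
    push_cast
    have hterm : ∀ i, c * (N : ℝ) ^ θ * (q i : ℝ) ^ (1 - 2 * θ) + (q i : ℝ) * (1 / 2)
        ≤ (q i : ℝ) * (B i).card := by
      intro i
      have hqR : (0 : ℝ) < q i := by exact_mod_cast Nat.pos_of_ne_zero (hq i).ne_zero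
      have : (q i : ℝ) ^ (1 - 2 * θ) = (q i : ℝ) / ((q i : ℝ) ^ 2) ^ θ := by
        rw [Real.rpow_sub hqR, Real.rpow_one, Real.rpow_mul hqR.le]
        norm_num
      have h3 : c * (N : ℝ) ^ θ * (q i : ℝ) ^ (1 - 2 * θ) + (q i : ℝ) * (1 / 2) =
          (q i : ℝ) * (c * ((N : ℝ) / (q i : ℝ) ^ 2) ^ θ + 1 / 2) := by
        rw [this, Real.div_rpow (by positivity) (by positivity)]; ring
      rw [h3]
      exact mul_le_mul_of_nonneg_left (hB3 i) hqR.le
    refine le_trans ?_ (Finset.sum_le_sum fun i _ => hterm i)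
    rw [Finset.sum_add_distrib, ← Finset.mul_sum, ← Finset.sum_mul]
    have hsub : ((N : ℝ) + 1) ^ θ ≤ (N : ℝ) ^ θ + 1 := by
      simpa using Real.rpow_add_le_add_rpow (Nat.cast_nonneg N) zero_le_one h0 h1
    have hQ' : (2 : ℝ) ≤ ∑ i, (q i : ℝ) := by exact_mod_cast hQ
    have hN0 : (0 : ℝ) ≤ c * (N : ℝ) ^ θ := by positivity
    nlinarith

end Vale.Agent.P042.Cyl
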